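import Crest.Agent.X212.Tms63.Gen
import Crest.Agent.X212.Fin37.Defs
import Crest.Agent.X212.Eqv71.Job

/-!
# Row 212, FIN-TMSZ (helper63): sizes and supports of the field terms of a job
-/

set_option autoImplicit false
set_option linter.unusedSectionVars false
noncomputable section
open scoped Manifold ContDiff Topology InnerProductSpace
open MeasureTheory Set Function Filter

namespace Crest.Agent.X212.Tms63
open An An.Job M Wrd81

variable {Wi : Type} {X : Mf 4} {A κ lam : Type} [Fintype A] [Fintype κ] [Fintype lam]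
  [DecidableEq lam] {M : Mark X A κ} {W : World M} {N : ML M lam}
  {Λ : Lns W N} {A' h : Type} [Fintype A'] [DecidableEq A'] [Fintype h] {r n : ℕ}
  {J : Job Wi Λ A' h r n}

theorem isClosed_cl (σ : Cel A') : IsClosed (Job.cl σ) := by
  simp only [Job.cl, Job.sp, ofPred_and, ofPred_forall]
  exact (isClosed_iInter fun a => isClosed_iInter fun _ => isClosed_iInter fun _ =>
    isClosed_eq (continuous_apply a) continuous_const).inter
    (isClosed_iInter fun a => isClosed_Icc.preimage (continuous_apply a))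

variable (J) in
/-- the parameters at which `c` is broken and the walls in `V` are far from breaking -/
def Pv (c : M.Cl) (V : Set A) (s₀ : ℝ) : Set (A' → ℝ) :=
  (⋃ σ ∈ J.𝒦, cl σ) ∩ ((⋂ a, ⋂ x, ⋂ (_ : J.hd a = some x), ⋂ (_ : x ∈ V), {s | s a ≤ s₀}) ∩
    ⋂ x ∈ c.1, {s | (J.Θ s).2 x = 1})

theorem isCompact_Pv (hJ : J.OK) (c : M.Cl) (V : Set A) (s₀ : ℝ) : IsCompact (Pv J c V s₀) :=
  (isCompact_univ_pi fun _ => isCompact_Icc (a := (0 : ℝ)) (b := 1)).of_isClosed_subset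
    (((toFinite _).isClosed_biUnion fun σ _ => isClosed_cl σ).inter
      ((isClosed_iInter fun a => isClosed_iInter fun _ => isClosed_iInter fun _ =>
        isClosed_iInter fun _ => isClosed_le (continuous_apply a) continuous_const).inter
      (isClosed_biInter fun x _ => isClosed_eq
        ((continuous_apply x).comp (continuous_snd.comp hJ.sm.continuous)) continuous_const)))
    fun _ hs a _ => let ⟨_, _, k⟩ := mem_iUnion₂.1 hs.1; k.2 a

/-- the data of the term `w` on `Z c` are test data on a set where the family is uniform -/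
theorem exists_ut (hJ : J.OK) (w : Wi) (c : M.Cl) : (∀ s, Fin37.Pm J c s → J.co w s = 0) ∨
    ∃ U K, Ut U (Λ.G J.m c) K ∧ TmIn (W.Z c).I U (Fin37.tm J c w) ∧
      (∀ s, Fin37.Pm J c s → J.co w s ≠ 0 → J.Θ s ∈ K) ∧
      ∀ L, IsCompact L → L ⊆ U → ∃ C, ∀ p ∈ K, (Λ.G J.m c p).F.μ.real L ≤ C := by
  obtain ⟨V, h1, h2⟩ := hJ.tw w
  refine or_iff_not_imp_left.2 fun hc => ?_
  push Not at hc
  obtain ⟨s₁, ⟨σ₁, a1, a2, a3⟩, a4⟩ := hc
  have t := (hJ.tp_in a1 ⟨J.cl_dom a2, a3⟩ (hJ.hw_sub a1 ⟨J.cl_dom a2, a3⟩ h2 a4)).tm h1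
  obtain ⟨s₀, h3, h4⟩ := h2
  have hQ := (isCompact_Pv hJ c V s₀).image hJ.sm.continuous
  have hU : ∀ p ∈ J.Θ '' Pv J c V s₀, ∀ z ∈ W.φ c '' (M.sys.cores (J.hw \ V))ᶜ,
      (p, z) ∈ M.Ω c.1 (W.φ c) := by
    rintro _ ⟨s, ⟨b1, b2, b3⟩, rfl⟩ _ ⟨x, hx, rfl⟩
    obtain ⟨σ, b4, b5⟩ := mem_iUnion₂.1 b1
    simp only [mem_iInter, mem_ofPred_eq] at b2 b3
    refine W.mem_Ω_of_br ⟨hJ.par σ b4 s (J.cl_dom b5), b3⟩ fun k => hx
      (biUnion_subset_biUnion_left (fun y hy => ?_) k)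
    obtain ⟨a, b6, b7⟩ := hJ.inf σ b4 s (J.cl_dom b5) y hy
    exact ⟨⟨a, b6⟩, fun hV => (b7.symm.trans_le (b2 a y b6 hV)).not_gt h3⟩
  refine ⟨_, _, ut (Λ.Λ J.m c) W.isOpen_Ω hQ hU, t, fun s ⟨σ, b1, b2, b3⟩ b4 =>
    ⟨mem_image_of_mem _ ⟨mem_biUnion b1 b2, ?_, mem_biInter fun x hx => b3.ge hx⟩,
      Mark.mem_Ω (W.φ c) (hJ.memO b1 ⟨J.cl_dom b2, b3⟩)⟩, fun L k1 k2 =>
    (vol (L := W.L J.m c) hQ hU k1 k2).imp fun C hC p hp => hC p hp.1 hp.2⟩
  simpa only [mem_iInter, mem_ofPred_eq] using fun a x k1 k2 =>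
    le_of_not_ge fun k3 => b4 (h4 σ b1 s (J.cl_dom b2) a x k1 k2 k3)

theorem finCl : Finite M.Cl := by unfold Mark.Cl; infer_instance

/-- **FIN-TMSZ** -/
theorem tmsz (hJ : J.OK) : Fin37.TMSZ J := fun w => by
  have := finCl (M := M)
  refine ((eventually_ge_atTop 1).and
    (eventually_all.2 fun c => ?_ : ∀ᶠ k : ℕ in atTop, ∀ c, _)).exists
  obtain h0 | ⟨U, K, h1, h2, h3, h4⟩ := exists_ut hJ w c
  · exact .of_forall fun _ s k1 k2 => (k2 (h0 s k1)).elim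
  obtain ⟨L, k1, k2, k3⟩ := h2.supp (ι := Option κ)
  obtain ⟨C, hC⟩ := h4 L k1 k2
  filter_upwards [h1.ev_tm (W.L J.m c).F0 h2, Mp86.ev_ge C] with k e1 e2 s b1 b2
  exact ⟨e1 _ (h3 s b1 b2), L, k1, (hC _ (h3 s b1 b2)).trans e2, fun x z hz => k3 x _ _ z hz⟩

end Crest.Agent.X212.Tms63
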