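import Crest.Agent.X212.Tms63.Main
import Crest.Agent.X212.Abel74.Lit

/-!
# Row 212, FIN-TMSZ (helper63): sizes of the curvature seeds of the field terms of a job
-/

set_option autoImplicit false
set_option linter.unusedSectionVars false
noncomputable section
open scoped Manifold ContDiff Topology InnerProductSpace
open MeasureTheory Set Function Filter

namespace Crest.Agent.X212.Tms63
open An An.Job M Wrd81

variable {Wi : Type} {X : Mf 4} {A κ lam : Type} [Fintype A] [Fintype κ] [Fintype lam]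
  [DecidableEq lam] {M : Mark X A κ} {W : World M} {N : ML M lam}
  {Λ : Lns W N} {A' h : Type} [Fintype A'] [DecidableEq A'] [Fintype h] {r n : ℕ}
  {J : Job Wi Λ A' h r n}

theorem tms (hJ : J.OK) (w : Wi) : ∃ k : ℕ, ∀ c s, Fin37.Pm J c s → J.co w s ≠ 0 →
    Abel74.TmS (J.G c s).F k (Fin37.tm J c w) := by
  have := finCl (M := M)
  refine (eventually_all.2 fun c => ?_ : ∀ᶠ k : ℕ in atTop, ∀ c, _).exists
  obtain h0 | ⟨U, K, h1, h2, h3, -⟩ := exists_ut hJ w c
  · exact .of_forall fun _ s k1 k2 => (k2 (h0 s k1)).elim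
  generalize Fin37.tm J c w = T at h2
  cases T with
  | ad g k ξ => exact (h1.ev_sd (W.L J.m c).F0 h2.2.2.1).mono fun _ e s b1 b2 => e _ (h3 s b1 b2)
  | adn f g k φ L =>
    exact ((eventually_all_finite L.finite_toSet).2 fun ξ hξ => h1.ev_sd (W.L J.m c).F0
      (h2.2.2.2.2.2 ξ hξ).1).mono fun _ e s b1 b2 ξ hξ => e ξ hξ _ (h3 s b1 b2)
  | _ => exact .of_forall fun _ _ _ _ => trivial

end Crest.Agent.X212.Tms63
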