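import Crest.Agent.X212.Mp86.Un
import Crest.Agent.X212.Mp86.Scn
import Crest.Agent.X212.Wrd81.In
import Crest.Agent.X212.Cht98.Wld

/-!
# Row 212, FIN-TMSZ (helper63): uniform sizes of terms with test data in a layer
-/

set_option autoImplicit false
set_option linter.unusedSectionVars false
noncomputable section
open scoped Manifold ContDiff Topology InnerProductSpace
open MeasureTheory Set Function Filter

namespace Crest.Agent.X212.Tms63
open An Sob92 Prm93 Wrd81 Mp86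

section gen
variable {E : Type} [NormedAddCommGroup E] [NormedSpace ℝ E] [FiniteDimensional ℝ E]
  [MeasurableSpace E] [BorelSpace E]
  {HM : Type} [TopologicalSpace HM] {I : ModelWithCorners ℝ E HM} [I.Boundaryless]
  {M : Type} [TopologicalSpace M] [ChartedSpace HM M] [IsManifold I ∞ M]
  [MeasurableSpace M] [T2Space M] [BorelSpace M] [SecondCountableTopology M]
  {ι : Type} [Fintype ι] {lam : Type} [Fintype lam] {r n : ℕ}
  {T : Type} {U : Set M} {G : T → Geo I M ι lam} {K : Set T}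

/-- test data in `U` have uniform sizes for the geometries `G t`, `t ∈ K` -/
structure Ut (U : Set M) (G : T → Geo I M ι lam) (K : Set T) : Prop where
  gd : ∀ g, Tf I U g → ∃ C, ∀ t ∈ K, Gd (G t).F C g
  sc : ∀ s, Tv I U s → ∃ C, ∀ t ∈ K, Sc (G t) C s

namespace Ut
variable (h : Ut U G K) (F₀ : Fr I M ι)
include h

theorem ev_gd {g : M → ℝ} (hg : Tf I U g) : ∀ᶠ N : ℕ in atTop, ∀ t ∈ K, Gd (G t).F N g := by
  obtain ⟨C, hC⟩ := h.gd g hg
  exact (ev_ge C).mono fun N k t ht => ⟨hg.sm, fun x => ((hC t ht).le x).trans k,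
    fun x => ((hC t ht).gr x).trans k⟩

theorem ev_g1 {g : M → ℝ} (hg : Tf I U g) : ∀ᶠ N : ℕ in atTop, ∀ t ∈ K, G1 (G t).F N g :=
  (h.ev_gd hg).mono fun _ k t ht => (k t ht).le

theorem ev_sc {s : M → Eu lam} (hs : Tv I U s) : ∀ᶠ N : ℕ in atTop, ∀ t ∈ K, Sc (G t) N s := by
  obtain ⟨C, hC⟩ := h.sc s hs
  exact (ev_ge C).mono fun N k t ht => ⟨hs.sm, fun x => ((hC t ht).le x).trans k,
    fun x => ((hC t ht).gr x).trans k⟩

include F₀

theorem ev_sw {u : SW M} (hu : SwIn I U u) : ∀ᶠ N : ℕ in atTop, ∀ t ∈ K, SWSz (G t).F N u := by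
  have : ∀ᶠ N : ℕ in atTop, ∀ l ∈ u, ∀ t ∈ K, LtSz (G t).F N l :=
    (eventually_all_finite u.finite_toSet).2 fun l hl => by
      cases l with
      | mul f =>
        have hf : Tf I U f := hu _ hl
        filter_upwards [ev_norm (hf.cb F₀), h.ev_g1 hf] with N h1 h2 t ht
        exact ⟨hf.sm, fun x => by simpa using (h1 x).2, h2 t ht⟩
      | cl g => exact h.ev_gd (hu _ hl)
      | _ => exact .of_forall fun _ _ _ => trivial
  filter_upwards [this, eventually_ge_atTop u.length] with N h1 h2 t ht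
  exact ⟨h2, fun l hl => h1 l hl t ht⟩

theorem ev_sd {s : Sd M} (hs : SdIn I U s) : ∀ᶠ N : ℕ in atTop, ∀ t ∈ K, SdSz (G t).F N s := by
  cases s with
  | q u v =>
    filter_upwards [h.ev_sw F₀ hs.1, h.ev_sw F₀ hs.2] with N h1 h2 t ht using ⟨h1 t ht, h2 t ht⟩
  | cv f g g' =>
    filter_upwards [ev_norm (hs.1.cb F₀), h.ev_g1 hs.2.1, h.ev_g1 hs.2.2] with N h1 h2 h3 t ht
    exact ⟨fun x => by simpa using (h1 x).2, h2 t ht, h3 t ht⟩

/-- **terms with test data in `U` have uniform sizes** -/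
theorem ev_tm {X : Tm M lam r n} (hX : TmIn I U X) :
    ∀ᶠ N : ℕ in atTop, ∀ t ∈ K, TmSz (G t) N X := by
  cases X with
  | lin u => exact h.ev_sw F₀ hX.1
  | anti d s u =>
    filter_upwards [h.ev_sc hX.2.1, h.ev_sw F₀ hX.2.2] with N h1 h2 t ht using ⟨h1 t ht, h2 t ht⟩
  | ad g g' ξ =>
    filter_upwards [h.ev_g1 hX.1, h.ev_g1 hX.2.1, h.ev_sd F₀ hX.2.2.1, ev_ll (hX.2.2.2.ok F₀)]
      with N h1 h2 h3 h4 t ht using ⟨h1 t ht, h2 t ht, h3 t ht, h4⟩
  | adj d s g g' u v l =>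
    obtain ⟨-, a1, a2, a3, a4, a5, a6⟩ := hX
    filter_upwards [ev_norm (F₀ := F₀) (Cb_of_hcs a1.sm a1.hcs), h.ev_g1 a2, h.ev_g1 a3,
      h.ev_sw F₀ a4, h.ev_sw F₀ a5, ev_ll (a6.ok F₀)] with N h1 h2 h3 h4 h5 h6 t ht
      using ⟨fun x => (h1 x).1, h2 t ht, h3 t ht, h4 t ht, h5 t ht, h6⟩
  | adn f g g' φ L =>
    obtain ⟨a1, a2, a3, -, ⟨C, a4⟩, -⟩ := hX
    filter_upwards [ev_norm (a1.cb F₀), h.ev_g1 a2, h.ev_g1 a3, ev_ge C] with N h1 h2 h3 h4 t ht
      using ⟨fun x => (h1 x).1, h2 t ht, h3 t ht, fun s hs => (a4 s hs).trans h4⟩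
  | _ => exact .of_forall fun _ _ _ => trivial

end Ut

variable [NormedAddCommGroup T] [NormedSpace ℝ T]

theorem le_fam {Q : Set T} {L : Set M} (hQ : IsCompact Q) (hL : IsCompact L) {f : T → M → ℝ}
    (hf : ∀ t ∈ Q, ∀ x ∈ L, JAt I f t x) : ∃ C, 0 ≤ C ∧ ∀ t ∈ Q, ∀ x ∈ L, f t x ≤ C :=
  let ⟨C, hC⟩ := Cht98.bdd_fam hQ hL fun t ht x hx => (hf t ht x hx).continuousAt
  ⟨|C|, abs_nonneg _, fun t ht x hx => (le_abs_self _).trans ((hC t ht x hx).trans (le_abs_self _))⟩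

end gen

section lay
open M
variable {Z : Mf 4} {o : Z.M → R208.F.Ext Z.E} {T ι : Type} [NormedAddCommGroup T]
  [NormedSpace ℝ T] [Fintype ι] {Ω : Set (T × Z.M)} {L : Lay Z o T ι Ω} {lam : Type} [Fintype lam]
  [DecidableEq lam] (Λ : LLay L lam) {Q : Set T} {U : Set Z.M}
  (hΩ : IsOpen Ω) (hQ : IsCompact Q) (hU : ∀ t ∈ Q, ∀ x ∈ U, (t, x) ∈ Ω)
include hQ hU

include hΩ in
/-- **test data have uniform sizes in a layer** -/
theorem ut : Ut U Λ.G {t ∈ Q | ∀ x, (t, x) ∈ Ω} := by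
  refine ⟨fun g hg => ?_, fun s hs => ?_⟩
  · have d : ∀ t ∈ Q, ∀ x ∈ tsupport g, ∀ a, JAt Z.I (fun s => dv Z.I (L.e s a) g) t x :=
      fun t ht x hx a => JAt.dv' (L.sm t x (hU t ht x (hg.sub hx)) a) (.of_fixed (hg.sm x))
    obtain ⟨C, h0, hC⟩ := le_fam (I := Z.I) hQ hg.hcs
      (f := fun s x => ∑ a, dv Z.I (L.e s a) g x ^ 2)
      fun t ht x hx => ContMDiffAt.sum fun a _ => (d t ht x hx a).pow 2
    obtain ⟨C', h0', hC'⟩ := le_fam (I := Z.I) hQ hg.hcs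
      (f := fun s x => ∑ a, ∑ k, (dv Z.I (L.e s a) (dv Z.I (L.e s k) g) x +
        ∑ b, dv Z.I (L.e s b) g x * gL (L.e s) a b k x) ^ 2)
      fun t ht x hx => have m := hU t ht x (hg.sub hx)
        ContMDiffAt.sum fun a _ => ContMDiffAt.sum fun k _ =>
          ContMDiffAt.pow (g := fun z : T × Z.M => dv Z.I (L.e z.1 a) (dv Z.I (L.e z.1 k) g) z.2 +
            ∑ b, dv Z.I (L.e z.1 b) g z.2 * gL (L.e z.1) a b k z.2)
          ((JAt.dv' (e := fun s => L.e s a) (L.sm t x m a) (d t ht x hx k)).add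
            (ContMDiffAt.sum fun b _ => Pj41.FSm.mul' (d t ht x hx b) (jAt_gL
              (eventually_of_mem (hΩ.mem_nhds m) fun _ hq => L.sm _ _ hq) (L.sp _ _ m) a b k))) 2
    refine ⟨max C C', fun t ht => ⟨hg.sm, fun x => le_max_of_le_left ?_,
      fun x => le_max_of_le_right ?_⟩⟩
    · show ∑ a, dv Z.I ((L.F t).e a) g x ^ 2 ≤ C
      by_cases hx : x ∈ tsupport g
      · rw [L.F_e ht.2]; exact hC t ht.1 x hx
      · simpa [dv_eq_zero_of_notMem hx] using h0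
    · show ∑ a, ∑ k, (dv Z.I ((L.F t).e a) (dv Z.I ((L.F t).e k) g) x +
        ∑ b, dv Z.I ((L.F t).e b) g x * (L.F t).Gam a b k x) ^ 2 ≤ C'
      by_cases hx : x ∈ tsupport g
      · rw [Gam_eq, L.F_e ht.2]; exact hC' t ht.1 x hx
      · have e : ∀ a k, dv Z.I ((L.F t).e a) (dv Z.I ((L.F t).e k) g) x = 0 := fun a k =>
          dv_eq_zero_of_notMem fun h => hx ((L.F t).tsupport_D g k h)
        simpa [dv_eq_zero_of_notMem hx, e] using h0'
  · obtain ⟨C, hC⟩ := (ev_norm (F₀ := L.F0) (Cb_of_hcs hs.sm hs.hcs)).exists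
    obtain ⟨C', h0', hC'⟩ := le_fam (I := Z.I) hQ hs.hcs
      (f := fun t x => gr2 Z.I (L.e t) ((Λ.ln t).A Z.I (L.e t)) s x)
      fun t ht x hx => have m := hU t ht x (hs.sub hx)
        ContMDiffAt.sum fun a _ => (contDiff_norm_sq ℝ).contDiffAt.comp_contMDiffAt
          (f := fun z : T × Z.M => dv Z.I (L.e z.1 a) s z.2 +
            (Λ.ln z.1).A Z.I (L.e z.1) a z.2 (s z.2))
          ((JAt.dv' (e := fun s => L.e s a) (L.sm t x m a) (.of_fixed (hs.sm x))).add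
            ((Cht98.jAt_A Λ m a).clm_apply (JAt.of_fixed (hs.sm x))))
    refine ⟨max C C', fun t ht => ⟨hs.sm, fun x => le_max_of_le_left (hC x).2,
      fun x => le_max_of_le_right ?_⟩⟩
    show gr2 Z.I (L.F t).e ((Λ.ln t).A Z.I (L.F t).e) s x ≤ C'
    by_cases hx : x ∈ tsupport s
    · rw [L.F_e ht.2]; exact hC' t ht.1 x hx
    · simpa [gr2, cd, dv_eq_zero_of_notMem hx, image_eq_zero_of_notMem_tsupport hx] using h0'

/-- **compact sets have uniform volume in a layer** -/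
theorem vol {K : Set Z.M} (hK : IsCompact K) (hKU : K ⊆ U) :
    ∃ C, ∀ t ∈ Q, (∀ x, (t, x) ∈ Ω) → (L.F t).μ.real K ≤ C := by
  obtain ⟨C, h0, hC⟩ := le_fam (I := Z.I) hQ hK
    (f := fun s y => Met55.rj (L.e s) y / Met55.rj L.F0.e y) fun t ht x hx =>
      Cht98.jAt_rj (L.sm t x (hU t ht x (hKU hx))) (L.sp t x (hU t ht x (hKU hx))) L.F0.toPre
  have := L.F0.fin
  refine ⟨C * L.F0.μ.real K, fun t ht h => ?_⟩
  rw [vol_eq L.vol (L.F_vol t), measureReal_def, withDensity_apply _ hK.measurableSet]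
  refine ENNReal.toReal_le_of_le_ofReal (mul_nonneg h0 measureReal_nonneg)
    ((setLIntegral_mono' hK.measurableSet fun x hx => ENNReal.ofReal_le_ofReal
      (show _ ≤ C by rw [rd, L.F_e h]; exact hC t ht x hx)).trans_eq ?_)
  rw [setLIntegral_const, ENNReal.ofReal_mul h0, ofReal_measureReal hK.measure_lt_top.ne]

end lay

end Crest.Agent.X212.Tms63
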